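import Vale.Agent.P011.D4X.H64.Loc
import Vale.Agent.P011.Arith.Quad

/-!
Cubic extensions of number fields: at most one prime over a given one has even local degree.
-/

open NumberField IsDedekindDomain

namespace Vale.Agent.P011.D4Y

open Vale.Agent.P011.Arith Vale.Agent.P011.D4X

variable {k L : Type} [Field k] [NumberField k] [Field L] [NumberField L] [Algebra k L]

/-- The elements of `k` which are local squares at `w` are local squares at `v`. -/
def OddP (w : HeightOneSpectrum (𝓞 L)) (v : HeightOneSpectrum (𝓞 k)) : Prop :=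
  ∀ x : kˣ, Units.map (algebraMap k L : k →* L) x ∈ LS (w.valuation L) → x ∈ LS (v.valuation k)

/-- The residue field of a prime of degree one. -/
theorem exists_res {w : HeightOneSpectrum (𝓞 L)} {v : HeightOneSpectrum (𝓞 k)}
    (hw : w.asIdeal.comap (algebraMap (𝓞 k) (𝓞 L)) = v.asIdeal)
    (hf : v.asIdeal.inertiaDeg' w.asIdeal = 1) (y : 𝓞 L) :
    ∃ x : 𝓞 k, y - algebraMap (𝓞 k) (𝓞 L) x ∈ w.asIdeal := by
  have : w.asIdeal.LiesOver v.asIdeal := ⟨hw.symm⟩
  have hm := v.isMaximal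
  have hmw := w.isMaximal
  let _ : Field (𝓞 k ⧸ v.asIdeal) := Ideal.Quotient.field _
  let _ : Field (𝓞 L ⧸ w.asIdeal) := Ideal.Quotient.field _
  rw [Ideal.inertiaDeg'_algebraMap] at hf
  have h1 := (finrank_eq_one_iff_of_nonzero' (1 : 𝓞 L ⧸ w.asIdeal) one_ne_zero).mp hf
    (Ideal.Quotient.mk _ y)
  obtain ⟨c, hc⟩ := h1
  obtain ⟨x, rfl⟩ := Ideal.Quotient.mk_surjective c
  refine ⟨x, ?_⟩
  rw [← Ideal.Quotient.eq, ← hc, Algebra.smul_def, mul_one]
  rfl

theorem exists_near_one {w : HeightOneSpectrum (𝓞 L)} {v : HeightOneSpectrum (𝓞 k)}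
    (hw : w.asIdeal.comap (algebraMap (𝓞 k) (𝓞 L)) = v.asIdeal)
    (hf : v.asIdeal.inertiaDeg' w.asIdeal = 1) {t : L} (ht : w.valuation L t ≤ 1) :
    ∃ x : k, w.valuation L (t - algebraMap k L x) ≤ WithZero.exp (-1 : ℤ) := by
  obtain ⟨y, hy⟩ := w.exists_valuation_sub_lt_of_integer ht 1
  obtain ⟨x, hx⟩ := exists_res hw hf y
  refine ⟨(x : k), ?_⟩
  have h1 : w.valuation L (algebraMap (𝓞 L) L (y - algebraMap (𝓞 k) (𝓞 L) x)) < 1 :=
    (w.valuation_lt_one_iff_mem _).mpr hx
  have h2 : w.valuation L (t - algebraMap k L (x : k)) < 1 := by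
    have e : t - algebraMap k L (x : k) = -(algebraMap (𝓞 L) L y - t) +
        algebraMap (𝓞 L) L (y - algebraMap (𝓞 k) (𝓞 L) x) := by
      rw [map_sub]
      have e2 : algebraMap (𝓞 L) L (algebraMap (𝓞 k) (𝓞 L) x) = algebraMap k L (x : k) := rfl
      rw [e2]
      ring
    rw [e]
    refine (w.valuation L).map_add_lt ?_ h1
    rw [Valuation.map_neg]
    exact hy
  by_cases h0 : w.valuation L (t - algebraMap k L (x : k)) = 0
  · rw [h0]
    exact zero_le
  · obtain ⟨j, hj⟩ : ∃ j : ℤ, w.valuation L (t - algebraMap k L (x : k)) = WithZero.exp j :=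
      ⟨WithZero.log _, (WithZero.exp_log h0).symm⟩
    rw [hj] at h2 ⊢
    rw [← WithZero.exp_zero, WithZero.exp_lt_exp] at h2
    rw [WithZero.exp_le_exp]
    omega

/-- If the prime has degree one and is unramified, then `k` is dense. -/
theorem dens {w : HeightOneSpectrum (𝓞 L)} {v : HeightOneSpectrum (𝓞 k)}
    (hw : w.asIdeal.comap (algebraMap (𝓞 k) (𝓞 L)) = v.asIdeal)
    (he : v.asIdeal.ramificationIdx' w.asIdeal = 1)
    (hf : v.asIdeal.inertiaDeg' w.asIdeal = 1) (n : ℕ) {z : L} (hz : w.valuation L z ≤ 1) :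
    ∃ x : k, w.valuation L (z - algebraMap k L x) ≤ WithZero.exp (-(n : ℤ)) := by
  have : w.asIdeal.LiesOver v.asIdeal := ⟨hw.symm⟩
  have hval : ∀ x : k, w.valuation L (algebraMap k L x) = v.valuation k x := fun x => by
    rw [← HeightOneSpectrum.valuation_liesOver L v w x, he, pow_one]
  obtain ⟨π, hπ⟩ := v.valuation_exists_uniformizer k
  have hπ0 : π ≠ 0 := by
    rintro rfl
    rw [map_zero] at hπ
    exact WithZero.exp_ne_zero hπ.symm
  induction n with
  | zero =>
    refine ⟨0, ?_⟩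
    rw [map_zero, sub_zero, Nat.cast_zero, neg_zero, WithZero.exp_zero]
    exact hz
  | succ n ih =>
    obtain ⟨x, hx⟩ := ih
    have hπn : algebraMap k L (π ^ n) ≠ 0 := (map_ne_zero _).mpr (pow_ne_zero n hπ0)
    have hvn : w.valuation L (algebraMap k L (π ^ n)) = WithZero.exp (-(n : ℤ)) := by
      rw [hval, map_pow, hπ, ← WithZero.exp_nsmul]
      congr 1
      simp
    have ht : w.valuation L ((z - algebraMap k L x) / algebraMap k L (π ^ n)) ≤ 1 := by
      rw [map_div₀, hvn]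
      exact div_le_one_of_le₀ hx zero_le
    obtain ⟨y, hy⟩ := exists_near_one hw hf ht
    refine ⟨x + π ^ n * y, ?_⟩
    have e : z - algebraMap k L (x + π ^ n * y) = algebraMap k L (π ^ n) *
        ((z - algebraMap k L x) / algebraMap k L (π ^ n) - algebraMap k L y) := by
      rw [map_add, map_mul]
      field_simp
      ring
    rw [e, map_mul, hvn]
    calc WithZero.exp (-(n : ℤ)) * _ ≤ WithZero.exp (-(n : ℤ)) * WithZero.exp (-1 : ℤ) :=
          mul_le_mul_right hy _
      _ = WithZero.exp (-((n + 1 : ℕ) : ℤ)) := by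
          rw [← WithZero.exp_add]
          congr 1
          push_cast
          ring

theorem odd_of_one {w : HeightOneSpectrum (𝓞 L)} {v : HeightOneSpectrum (𝓞 k)}
    (hw : w.asIdeal.comap (algebraMap (𝓞 k) (𝓞 L)) = v.asIdeal)
    (he : v.asIdeal.ramificationIdx' w.asIdeal = 1)
    (hf : v.asIdeal.inertiaDeg' w.asIdeal = 1) : OddP w v := by
  intro x hx
  have : w.asIdeal.LiesOver v.asIdeal := ⟨hw.symm⟩
  have hval : ∀ x : k, w.valuation L (algebraMap k L x) = v.valuation k x := fun x => by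
    rw [← HeightOneSpectrum.valuation_liesOver L v w x, he, pow_one]
  obtain ⟨y, hy⟩ := hx
  have hy' : w.valuation L (algebraMap k L x / (y : L) ^ 2 - 1) < w.valuation L 4 := hy
  have hy0 : w.valuation L (y : L) ≠ 0 := (Valuation.ne_zero_iff _).mpr y.ne_zero
  obtain ⟨π, hπ⟩ := v.valuation_exists_uniformizer k
  have hπ0 : π ≠ 0 := by
    rintro rfl
    rw [map_zero] at hπ
    exact WithZero.exp_ne_zero hπ.symm
  -- an element of `k` with the same valuation
  obtain ⟨t, ht0, ht⟩ : ∃ t : k, t ≠ 0 ∧ w.valuation L (algebraMap k L t) = w.valuation L (y : L) := by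
    refine ⟨π ^ (-WithZero.log (w.valuation L (y : L))), zpow_ne_zero _ hπ0, ?_⟩
    rw [hval, map_zpow₀, hπ, ← WithZero.exp_zsmul]
    have e : (-WithZero.log (w.valuation L (y : L))) • (-1 : ℤ) =
        WithZero.log (w.valuation L (y : L)) := by
      rw [smul_eq_mul]
      ring
    rw [e, WithZero.exp_log hy0]
  have htL : algebraMap k L t ≠ 0 := (map_ne_zero _).mpr ht0
  have h1 : w.valuation L ((y : L) / algebraMap k L t) = 1 := by
    rw [map_div₀, ht, div_self hy0]
  obtain ⟨n, hn⟩ : ∃ n : ℕ, WithZero.exp (-(n : ℤ)) < w.valuation L (4 : L) := by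
    have h4 : w.valuation L (4 : L) ≠ 0 := (Valuation.ne_zero_iff _).mpr (by norm_num)
    refine ⟨(WithZero.log (w.valuation L (4 : L))).natAbs + 1, ?_⟩
    conv_rhs => rw [← WithZero.exp_log h4]
    rw [WithZero.exp_lt_exp]
    omega
  obtain ⟨s, hs⟩ := dens hw he hf n h1.le
  have hs' := lt_of_le_of_lt hs hn
  -- the element `s t`
  have e1 : algebraMap k L (s * t) / (y : L) - 1 =
      -(((y : L) / algebraMap k L t - algebraMap k L s) / ((y : L) / algebraMap k L t)) := by
    have := y.ne_zero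
    rw [map_mul]
    field_simp
    ring
  have h2 : w.valuation L (algebraMap k L (s * t) / (y : L) - 1) < w.valuation L 4 := by
    rw [e1, Valuation.map_neg, map_div₀, h1, div_one]
    exact hs'
  have hst0 : s * t ≠ 0 := by
    intro h
    rw [h, map_zero, zero_div, zero_sub, Valuation.map_neg, map_one] at h2
    exact absurd (val_four_le (w.valuation L)) (not_le.mpr h2)
  have hstL : algebraMap k L (s * t) ≠ 0 := (map_ne_zero _).mpr hst0
  have h3 := near_one_inv h2
  have h5 := near_one_mul hy' (near_one_mul h3 h3)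
  have e2 : algebraMap k L x / (y : L) ^ 2 * ((algebraMap k L (s * t) / (y : L))⁻¹ *
      (algebraMap k L (s * t) / (y : L))⁻¹) - 1 = algebraMap k L ((x : k) / (s * t) ^ 2 - 1) := by
    have := y.ne_zero
    rw [map_sub, map_div₀, map_pow, map_one]
    field_simp
  have e4 : (4 : L) = algebraMap k L 4 := (map_ofNat _ 4).symm
  rw [e2, e4, val_lt_val_iff hw] at h5
  exact ⟨Units.mk0 _ hst0, h5⟩

/-- At most one prime over `v` has even local degree. -/
theorem odd_of_other (h3 : Module.finrank k L = 3) {w w2 : HeightOneSpectrum (𝓞 L)}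
    {v : HeightOneSpectrum (𝓞 k)}
    (hw : w.asIdeal.comap (algebraMap (𝓞 k) (𝓞 L)) = v.asIdeal)
    (hw2 : w2.asIdeal.comap (algebraMap (𝓞 k) (𝓞 L)) = v.asIdeal) (hne : w ≠ w2)
    (h2 : ¬ OddP w2 v) : OddP w v := by
  classical
  have hm := v.isMaximal
  have l1 : w.asIdeal.LiesOver v.asIdeal := ⟨hw.symm⟩
  have l2 : w2.asIdeal.LiesOver v.asIdeal := ⟨hw2.symm⟩
  have hsum := Ideal.sum_ramification_inertia (R := 𝓞 k) (𝓞 L) k L (p := v.asIdeal) v.ne_bot
  rw [h3] at hsum
  have m1 : w.asIdeal ∈ IsDedekindDomain.primesOverFinset v.asIdeal (𝓞 L) :=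
    (IsDedekindDomain.mem_primesOverFinset_iff v.ne_bot _).mpr ⟨w.isPrime, l1⟩
  have m2 : w2.asIdeal ∈ IsDedekindDomain.primesOverFinset v.asIdeal (𝓞 L) :=
    (IsDedekindDomain.mem_primesOverFinset_iff v.ne_bot _).mpr ⟨w2.isPrime, l2⟩
  have hne' : w.asIdeal ≠ w2.asIdeal := fun h => hne (HeightOneSpectrum.ext h)
  have hle : ∑ P ∈ {w.asIdeal, w2.asIdeal},
      v.asIdeal.ramificationIdx' P * v.asIdeal.inertiaDeg' P ≤ 3 := by
    rw [← hsum]
    refine Finset.sum_le_sum_of_subset ?_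
    intro P hP
    rcases Finset.mem_insert.mp hP with rfl | hP
    · exact m1
    · rw [Finset.mem_singleton.mp hP]
      exact m2
  rw [Finset.sum_pair hne'] at hle
  have e1 : v.asIdeal.ramificationIdx' w.asIdeal ≠ 0 :=
    Ideal.IsDedekindDomain.ramificationIdx'_ne_zero_of_liesOver w.asIdeal v.ne_bot
  have e2 : v.asIdeal.ramificationIdx' w2.asIdeal ≠ 0 :=
    Ideal.IsDedekindDomain.ramificationIdx'_ne_zero_of_liesOver w2.asIdeal v.ne_bot
  have f1 : v.asIdeal.inertiaDeg' w.asIdeal ≠ 0 := Ideal.inertiaDeg'_ne_zero _ _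
  have f2 : v.asIdeal.inertiaDeg' w2.asIdeal ≠ 0 := Ideal.inertiaDeg'_ne_zero _ _
  have h4 : ¬ (v.asIdeal.ramificationIdx' w2.asIdeal = 1 ∧ v.asIdeal.inertiaDeg' w2.asIdeal = 1) :=
    fun h => h2 (odd_of_one hw2 h.1 h.2)
  have h5 : 2 ≤ v.asIdeal.ramificationIdx' w2.asIdeal * v.asIdeal.inertiaDeg' w2.asIdeal := by
    rcases Nat.lt_or_ge (v.asIdeal.ramificationIdx' w2.asIdeal) 2 with h | h
    · have e3 : v.asIdeal.ramificationIdx' w2.asIdeal = 1 := by omega
      have e4 : v.asIdeal.inertiaDeg' w2.asIdeal ≠ 1 := fun h' => h4 ⟨e3, h'⟩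
      rw [e3, one_mul]
      omega
    · nlinarith [Nat.pos_of_ne_zero f2]
  have h6 : v.asIdeal.ramificationIdx' w.asIdeal * v.asIdeal.inertiaDeg' w.asIdeal ≤ 1 := by omega
  have h7 : v.asIdeal.ramificationIdx' w.asIdeal * v.asIdeal.inertiaDeg' w.asIdeal = 1 := by
    have := Nat.mul_pos (Nat.pos_of_ne_zero e1) (Nat.pos_of_ne_zero f1)
    omega
  exact odd_of_one hw (Nat.dvd_one.mp (Dvd.intro _ h7)) (Nat.dvd_one.mp (Dvd.intro_left _ h7))

end Vale.Agent.P011.D4Y
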