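import Vale.Agent.P011.D4X.H64.F4
import Vale.Agent.P011.D4Y.H64.Odd

/-!
Quaternion algebras over the base split at the primes of even local degree.
-/

open NumberField IsDedekindDomain

namespace Vale.Agent.P011.D4Y

open Vale.Agent.P011.Arith Vale.Agent.P011.D4 Vale.Agent.P011.D4X Vale.Agent.P011.MPQ

/-- The norm group depends only on the local square class. -/
theorem mem_of_class {F : Type} [Field F] [NumberField F] {w : HeightOneSpectrum (𝓞 F)}
    {a d x : Fˣ} (hd : d ∈ LS (w.valuation F)) (h : x ∈ NF (a * d) ⊔ LS (w.valuation F)) :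
    x ∈ NF a ⊔ LS (w.valuation F) := by
  have h1 := mem_symm (w := w.valuation F) (a * d) x h
  apply mem_symm x a
  have h2 := mul_mem h1 (Subgroup.mem_sup_right (S := NF x) (inv_mem hd))
  rwa [mul_inv_cancel_right] at h2

variable {k L : Type} [Field k] [NumberField k] [Field L] [NumberField L] [Algebra k L]

theorem mem_of_even {w : HeightOneSpectrum (𝓞 L)} {v : HeightOneSpectrum (𝓞 k)}
    (hw : w.asIdeal.comap (algebraMap (𝓞 k) (𝓞 L)) = v.asIdeal) (h : ¬ OddP w v) (a b : kˣ) :
    up L b ∈ NF (up L a) ⊔ LS (w.valuation L) := by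
  classical
  by_cases haL : up L a ∈ LS (w.valuation L)
  · rw [NF_sup_of_mem' _ haL]
    exact Subgroup.mem_top _
  have hak : a ∉ LS (v.valuation k) := fun h1 => haL (LS_map hw h1)
  unfold OddP at h
  push Not at h
  obtain ⟨δ, hδ1, hδ2⟩ := h
  -- a global element
  have hSf : ({v' | Ram a b v'} ∪ {v} : Set (HeightOneSpectrum (𝓞 k))).Finite :=
    (ram_finite _ _).union (Set.finite_singleton _)
  obtain ⟨D, hD⟩ := weak_approx' hSf (Sum.elim (fun v' => if v' = v then δ else a) fun _ => a)
  have hDv : D / δ ∈ LS (v.valuation k) := by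
    have h1 := hD (Sum.inl v) (inl_mem_SP.mpr (Or.inr rfl))
    simp only [Sum.elim_inl, if_pos] at h1
    exact h1
  have hDL : up L D ∈ LS (w.valuation L) := by
    have h1 := mul_mem (LS_map hw hDv) hδ1
    rwa [← map_mul, div_mul_cancel] at h1
  have hDr : ∀ v', Ram a b v' → D ∉ LS (v'.valuation k) := by
    intro v' hv' hcon
    have h1 := hD (Sum.inl v') (inl_mem_SP.mpr (Or.inl hv'))
    by_cases hvv : v' = v
    · subst hvv
      have h2 := mul_mem (inv_mem hDv) hcon
      rw [inv_div, div_mul_cancel] at h2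
      exact hδ2 h2
    · simp only [Sum.elim_inl, if_neg hvv] at h1
      change D / a ∈ LS (v'.valuation k) at h1
      have h2 := mul_mem (inv_mem h1) hcon
      rw [inv_div, div_mul_cancel] at h2
      exact ram_not_LS hv' h2
  have hDs : ∀ φ : k →+* ℝ, φ a < 0 → φ b < 0 → φ D < 0 := by
    intro φ h1 _
    have h2 : 0 < φ ((D / a : kˣ) : k) := hD (Sum.inr φ) inr_mem_SP
    rw [Units.val_div_eq_div_val, map_div₀] at h2
    rcases div_pos_iff.mp h2 with ⟨h3, h4⟩ | ⟨h3, h4⟩
    · exact absurd h1 (not_lt.mpr h4.le)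
    · exact h3
  obtain ⟨p, q, r, hpqr⟩ := exists_pure_ne a b D hDr hDs
  have hD0 : algebraMap k L (D : k) ≠ 0 := (map_ne_zero _).mpr D.ne_zero
  have ha0 : (a : k) ≠ 0 := a.ne_zero
  have hb0 : (b : k) ≠ 0 := b.ne_zero
  by_cases hX : q ^ 2 - a * r ^ 2 = 0
  · exfalso
    apply haL
    have h1 : (D : k) = a * p ^ 2 := by
      rw [hpqr]
      linear_combination b * hX
    have hp0 : p ≠ 0 := by
      rintro rfl
      apply D.ne_zero
      rw [h1]
      ring
    have h2 : a = D * (Units.mk0 p hp0 ^ 2)⁻¹ := by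
      rw [eq_mul_inv_iff_mul_eq]
      apply Units.ext
      rw [Units.val_mul, Units.val_pow_eq_pow_val, Units.val_mk0, h1]
    rw [h2]
    change Units.map (algebraMap k L : k →* L) _ ∈ _
    rw [map_mul, map_inv, map_pow]
    exact mul_mem hDL (inv_mem (sq_mem_LS _))
  · have hU0 : (D : k) - a * p ^ 2 ≠ 0 := by
      intro h0
      apply hX
      have : (b : k) * (q ^ 2 - a * r ^ 2) = 0 := by
        rw [← h0, hpqr]
        ring
      exact (mul_eq_zero.mp this).resolve_left hb0
    obtain ⟨U, hU⟩ : ∃ U : kˣ, (U : k) = D - a * p ^ 2 := ⟨Units.mk0 _ hU0, rfl⟩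
    obtain ⟨X, hX'⟩ : ∃ X : kˣ, (X : k) = q ^ 2 - a * r ^ 2 := ⟨Units.mk0 _ hX, rfl⟩
    have hbX : b * X = U := by
      apply Units.ext
      rw [Units.val_mul, hX', hU, hpqr]
      ring
    have h1 : up L X ∈ NF (up L a) := by
      refine ⟨algebraMap k L q, algebraMap k L r, ?_⟩
      change algebraMap k L (X : k) = _ ^ 2 - algebraMap k L (a : k) * _ ^ 2
      rw [hX']
      simp only [map_sub, map_mul, map_pow]
    have h2 : up L (U * D) ∈ NF (up L a * up L D) := by
      refine ⟨algebraMap k L D, algebraMap k L p, ?_⟩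
      change algebraMap k L ((U * D : kˣ) : k) = algebraMap k L (D : k) ^ 2 -
        algebraMap k L (a : k) * algebraMap k L (D : k) * algebraMap k L p ^ 2
      rw [Units.val_mul, hU]
      simp only [map_sub, map_mul, map_pow]
      ring
    have h3 := mem_of_class hDL (Subgroup.mem_sup_left (T := LS (w.valuation L)) h2)
    have h4 : up L U ∈ NF (up L a) ⊔ LS (w.valuation L) := by
      have h5 := mul_mem h3 (Subgroup.mem_sup_right (S := NF (up L a)) (inv_mem hDL))
      change up L (U * D) * (up L D)⁻¹ ∈ _ at h5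
      have e : up L (U * D) = up L U * up L D := map_mul _ _ _
      rwa [e, mul_inv_cancel_right] at h5
    have h6 := mul_mem h4 (Subgroup.mem_sup_left (T := LS (w.valuation L)) (inv_mem h1))
    have e : up L U = up L b * up L X := by
      rw [← hbX]
      exact map_mul _ _ _
    rwa [e, mul_inv_cancel_right] at h6

/-- At the even primes the class of `(a, q b)` is the class of `(a, q)`. -/
theorem ram_of_even {w : HeightOneSpectrum (𝓞 L)} {v : HeightOneSpectrum (𝓞 k)}
    (hw : w.asIdeal.comap (algebraMap (𝓞 k) (𝓞 L)) = v.asIdeal) (h : ¬ OddP w v) {a b : kˣ}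
    {q : Lˣ} (hr : Ram (up L a) (q * up L b) w) : Ram (up L a) q w := by
  intro h1
  exact hr (mul_mem h1 (mem_of_even hw h a b))

end Vale.Agent.P011.D4Y
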