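import Vale.Agent.P011.D4Y.H64.F4i
import Vale.Agent.P011.D4Y.H63.RamOdd
import Vale.Agent.P011.D4Y.H68.Nf

/-!
Block D4Y: every class which is positive at the places with `a < 0` is, up to `kˣ`, a product of
three norms from good quadratic extensions.
-/

open NumberField IsDedekindDomain

namespace Vale.Agent.P011.D4Y

open Vale.Agent.P011.Arith Vale.Agent.P011.MPQ Vale.Agent.P011.D4 Vale.Agent.P011.D4.Oct
  Vale.Agent.P011.E6 Vale.Agent.P011.D4X

variable {k L E : Type} [Field k] [NumberField k] [Field L] [NumberField L] [Field E]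
  [Algebra k L] [Algebra k E] [Algebra L E]
  [IsScalarTower k L E] [NeZero (2 : E)] {ρ σ ι : E ≃ₐ[k] E} {α : E}
  {a b c : kˣ} {q : Lˣ} (H : HyI ρ σ ι α a b c q)

include H

/-- **F4.** -/
theorem F4 (ho : HOdd a q) {b' c' : kˣ} {j l : Oct a b c} (_h : Trip a b' c' gi j l) (ν : Lˣ)
    (hν : ∀ w : L →+* ℝ, w (algebraMap k L a) < 0 → 0 < w (ν : L)) :
    ∃ (D : Fin 3 → k) (x y : Fin 3 → L) (e : kˣ),
      (∀ i, GoodD a b q (D i) ∧ GoodD a b' q (D i) ∧ ∀ t : E, t * t ≠ algebraMap k E (D i)) ∧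
      (ν : L) = algebraMap k L (e : k) * ∏ i, (x i ^ 2 - algebraMap k L (D i) * y i ^ 2) := by
  have := H.numberField
  obtain ⟨t, ht, hav⟩ := H.exists_avoid
  obtain ⟨D, x, y, e, h1, -, h3, h4⟩ := F4i H.h3 H.ρ3 H.ρL (a := a) (b := b) (b' := b') (q := q)
    H.hdiv.aniso (fun w v hw hR x hx => ho v w hw hR x hx) ν hν t ht
  refine ⟨D, x, y, e, fun i => ⟨(h1 i).1, (h1 i).2, ?_⟩, h4⟩
  obtain ⟨hD0, ⟨w0, hw0, hw0'⟩, -⟩ := id (h1 i).1
  exact hav (D i) (not_sq_of_aniso H.hdiv.aniso hD0 hw0 hw0') (h3 i)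

end Vale.Agent.P011.D4Y
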