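import Vale.Agent.P011.D4Y.H64.Even
import Vale.Agent.P011.D4Y.H64.PlA

/-!
Every class is a product of norms from good quadratic extensions: arbitrary cubic extensions.
-/

open NumberField IsDedekindDomain Topology Filter

namespace Vale.Agent.P011.D4Y

open Vale.Agent.P011.Arith Vale.Agent.P011.D4 Vale.Agent.P011.D4X Vale.Agent.P011.MPQ

section appr

variable {L : Type} [Field L] [NumberField L]

/-- The local solution. -/
theorem loc_ptA (p : HeightOneSpectrum (𝓞 L) ⊕ InfinitePlace L) {ν a D c : Lˣ}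
    (h1 : ∀ w, p = Sum.inl w → c / ν ∈ NF a ⊔ NF D ⊔ LSp (Sum.inl w : Pl L))
    (h2 : ∀ ψ : L →+* ℝ, c / ν ∈ NF a ⊔ NF D ⊔ LSp (Sum.inr ψ : Pl L)) {ε : ℝ} (hε : 0 < ε) :
    ∃ X : Fin 4 → L, paAbv p (f4 (ν : L) a D X - c) < ε := by
  rcases p with w | u
  · exact loc_pt (Sum.inl w) (h1 w rfl) hε
  · by_cases hu : u.IsReal
    · obtain ⟨X, hX⟩ := loc_pt (Sum.inr (InfinitePlace.embedding_of_isReal hu)) (h2 _) hε
      refine ⟨X, ?_⟩
      change u _ < ε
      rw [plAbv_inr, ← Real.norm_eq_abs, InfinitePlace.norm_embedding_of_isReal] at hX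
      exact hX
    · have hu' : u.IsComplex := InfinitePlace.not_isReal_iff_isComplex.mp hu
      have hM : 0 < 1 + u (ν : L) := by
        have := (u.1).nonneg (ν : L)
        change 0 ≤ u (ν : L) at this
        linarith
      obtain ⟨s, hs⟩ := exists_sq_complex hu' ((c : L) / ν) (div_pos hε hM)
      refine ⟨![s, 0, 1, 0], ?_⟩
      have e : f4 (ν : L) a D ![s, 0, 1, 0] - c = (ν : L) * (s ^ 2 - (c : L) / ν) := by
        have e1 : f4 (ν : L) a D ![s, 0, 1, 0] =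
            ν * (s ^ 2 - a * 0 ^ 2) * (1 ^ 2 - D * 0 ^ 2) := rfl
        have := ν.ne_zero
        rw [e1]
        field_simp
        ring
      change u _ < ε
      rw [e, map_mul]
      rw [lt_div_iff₀ hM] at hs
      have h3 : 0 ≤ u (s ^ 2 - (c : L) / ν) := (u.1).nonneg _
      nlinarith

/-- The global solution. -/
theorem glob_ptA {S : Set (HeightOneSpectrum (𝓞 L))} (hS : S.Finite) {ν a D c : Lˣ}
    (h1 : ∀ w ∈ S, c / ν ∈ NF a ⊔ NF D ⊔ LSp (Sum.inl w : Pl L))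
    (h2 : ∀ ψ : L →+* ℝ, c / ν ∈ NF a ⊔ NF D ⊔ LSp (Sum.inr ψ : Pl L)) {ε : ℝ} (hε : 0 < ε) :
    ∃ X : Fin 4 → L, ∀ p ∈ TS S, paAbv p (f4 (ν : L) a D X - c) < ε := by
  classical
  have key : ∀ p : HeightOneSpectrum (𝓞 L) ⊕ InfinitePlace L, ∃ X0 : Fin 4 → L, ∃ δ : ℝ,
      0 < δ ∧ (p ∈ TS S → ∀ X : Fin 4 → L,
      (∀ i, paAbv p (X i - X0 i) < δ) → paAbv p (f4 (ν : L) a D X - c) < ε) := by
    intro p
    by_cases hp : p ∈ TS S
    · obtain ⟨X0, hX0⟩ := loc_ptA p (ν := ν) (a := a) (D := D) (c := c) (fun w hw => h1 w (by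
        rw [hw] at hp
        exact inl_mem_TS.mp hp)) h2 (half_pos hε)
      obtain ⟨δ, hδ, h3⟩ := f4_near (paAbv p) (ν : L) a D X0 (half_pos hε)
      refine ⟨X0, δ, hδ, fun _ X hX => ?_⟩
      have h4 := h3 X hX
      have h5 := (paAbv p).add_le (f4 (ν : L) a D X - f4 (ν : L) a D X0)
        (f4 (ν : L) a D X0 - c)
      rw [sub_add_sub_cancel] at h5
      linarith
    · exact ⟨0, 1, one_pos, fun h => absurd h hp⟩
  choose X0 δ hδ hX0 using key
  have h4 : ∀ i : Fin 4, ∃ f : L, ∀ p ∈ TS S, paAbv p (f - X0 p i) < δ p := fun i =>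
    approxA (TS S) (TS_finite hS) (fun p => X0 p i) δ hδ
  choose X hX using h4
  exact ⟨X, fun p hp => hX0 p hp X fun i => hX i p hp⟩

end appr

section base

variable {k L E : Type} [Field k] [NumberField k] [Field L] [NumberField L] [Field E]
  [NumberField E] [Algebra k L] [Algebra k E] [Algebra L E] [IsScalarTower k L E]

omit [NumberField L] [Algebra k L] [Algebra L E] [IsScalarTower k L E] in
/-- A place above a place of the base. -/
theorem exists_Q (S : Set (HeightOneSpectrum (𝓞 k))) (b : Pl k) (hb : b ∈ SP S) {ε : ℝ}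
    (hε : 0 < ε) : ∃ Q : HeightOneSpectrum (𝓞 E) ⊕ InfinitePlace E, Q ∈ TS (ov E S) ∧
      ∃ ε' : ℝ, 0 < ε' ∧ ∀ x : k, paAbv Q (algebraMap k E x) < ε' → plAbv b x < ε := by
  rcases b with v | τ
  · rw [inl_mem_SP] at hb
    obtain ⟨P, hP⟩ := exists_above (E := E) v
    obtain ⟨η, hη0, hη⟩ := exists_small_elt (Sum.inl v : Pl k) hε
    refine ⟨Sum.inl P, inl_mem_TS.mpr ⟨v, hb, hP⟩, plAbv (Sum.inl P : Pl E) (algebraMap k E η),
      (plAbv (Sum.inl P : Pl E)).pos ((map_ne_zero _).mpr hη0), fun x hx => ?_⟩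
    change plAbv (Sum.inl P : Pl E) (algebraMap k E x) < _ at hx
    rw [plAbv_lt, val_lt_val_iff hP, ← plAbv_lt] at hx
    exact hx.trans hη
  · let _ : Algebra k ℂ := ((algebraMap ℝ ℂ).comp τ).toAlgebra
    have hfin : Module.Finite k E := Module.Finite.of_restrictScalars_finite ℚ k E
    let φ : E →ₐ[k] ℂ := IsAlgClosed.lift
    refine ⟨Sum.inr (InfinitePlace.mk (φ : E →+* ℂ)), inr_mem_TS, ε, hε, fun x hx => ?_⟩
    change InfinitePlace.mk (φ : E →+* ℂ) (algebraMap k E x) < ε at hx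
    rw [InfinitePlace.apply] at hx
    have e : (φ : E →+* ℂ) (algebraMap k E x) = ((τ x : ℝ) : ℂ) := φ.commutes x
    rw [e, Complex.norm_real] at hx
    exact hx

omit [NumberField k] [NumberField L] in
/-- Squares in a cubic extension. -/
theorem sq_of_cubic (h3 : Module.finrank k L = 3) {x : k} (h : IsSquare (algebraMap k L x)) :
    IsSquare x := by
  obtain ⟨s, hs⟩ := h
  by_cases hx : x = 0
  · exact ⟨0, by rw [hx, mul_zero]⟩
  have h1 := congrArg (Algebra.norm k) hs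
  rw [Algebra.norm_algebraMap, h3, map_mul] at h1
  refine ⟨Algebra.norm k s / x, ?_⟩
  field_simp
  linear_combination h1

end base

section main

variable {k L E : Type} [Field k] [NumberField k] [Field L] [NumberField L] [Field E]
  [NumberField E] [Algebra k L] [Algebra k E] [Algebra L E] [IsScalarTower k L E]

omit [NumberField E] [Algebra k E] [Algebra L E] [IsScalarTower k L E] in
/-- The choice of the local classes. -/
theorem loc_choice (h3 : Module.finrank k L = 3) {a : kˣ}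
    (v : HeightOneSpectrum (𝓞 k)) (ha : a ∉ LS (v.valuation k)) :
    ∃ δ1 δ2 : kˣ, δ1 ∉ LS (v.valuation k) ∧ δ2 ∉ LS (v.valuation k) ∧
      ∀ w : HeightOneSpectrum (𝓞 L), w.asIdeal.comap (algebraMap (𝓞 k) (𝓞 L)) = v.asIdeal →
        (up L δ1 ∈ LS (w.valuation L) ∨ (OddP w v ∧ δ1 * δ2 ∉ LS (v.valuation k))) := by
  by_cases h : ∃ w2 : HeightOneSpectrum (𝓞 L),
      w2.asIdeal.comap (algebraMap (𝓞 k) (𝓞 L)) = v.asIdeal ∧ ¬ OddP w2 v
  · obtain ⟨w2, hw2, hne⟩ := h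
    have hne' := hne
    unfold OddP at hne'
    push Not at hne'
    obtain ⟨δ, hδ1, hδ2⟩ := hne'
    obtain ⟨g, hg1, hg2⟩ := exists_class v δ
    refine ⟨δ, g, hδ2, hg1, fun w hw => ?_⟩
    by_cases hww : w = w2
    · left
      rw [hww]
      exact hδ1
    · right
      refine ⟨odd_of_other h3 hw hw2 hww hne, ?_⟩
      rwa [mul_comm]
  · push Not at h
    obtain ⟨g, hg1, hg2⟩ := exists_class v a
    refine ⟨a, g, ha, hg1, fun w hw => Or.inr ⟨h w hw, ?_⟩⟩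
    rwa [mul_comm]

/-- **F4** for an arbitrary cubic extension, with signs. -/
theorem F4i (h3 : Module.finrank k L = 3) {ρ : E ≃ₐ[k] E} (ρ3 : ∀ x, ρ (ρ (ρ x)) = x)
    (hρ : ∃ y : L, ρ (algebraMap L E y) ≠ algebraMap L E y) {a b b' : kˣ} {q : Lˣ}
    (hb : Aniso a b)
    (hodd : ∀ (w : HeightOneSpectrum (𝓞 L)) (v : HeightOneSpectrum (𝓞 k)),
      w.asIdeal.comap (algebraMap (𝓞 k) (𝓞 L)) = v.asIdeal → Ram (up L a) q w → OddP w v)
    (ν : Lˣ) (hν : ∀ w : L →+* ℝ, w (algebraMap k L a) < 0 → 0 < w (ν : L))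
    (t : Fin 3 → kˣ) (ht : ∀ j, ¬ IsSquare (t j : k)) :
    ∃ (D : Fin 3 → k) (x y : Fin 3 → L) (e : kˣ),
      (∀ i, GoodD a b q (D i) ∧ GoodD a b' q (D i)) ∧
      (∀ i, ∀ τ : k →+* ℝ, τ (D i) < 0 ↔ τ a < 0) ∧
      (∀ i j, ∀ r : k, D i ≠ t j * r ^ 2) ∧
      (ν : L) = algebraMap k L (e : k) * ∏ i, (x i ^ 2 - algebraMap k L (D i) * y i ^ 2) := by
  classical
  have haS : ¬ IsSquare (a : k) := by
    rintro ⟨r, hr⟩
    have h1 := hb ⟨r, 1, 0, 0⟩ (by
      simp only [nrd]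
      rw [hr]
      ring)
    have h2 := congrArg QuaternionAlgebra.imI h1
    exact one_ne_zero (α := k) h2
  -- the set of places
  obtain ⟨v0, -, hv0⟩ := exists_nonsplit a haS ∅ Set.finite_empty
  choose below hbelow using fun w : HeightOneSpectrum (𝓞 L) => Sch.exists_below (F := k) w
  obtain ⟨R, hR⟩ : ∃ R : Set (HeightOneSpectrum (𝓞 L)), R = {w | Ram (up L a) q w} ∪
    {w | Ram (up L a) (q * up L b) w} ∪ {w | Ram (up L a) (q * up L b') w} := ⟨_, rfl⟩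
  have hRf : R.Finite := by
    rw [hR]
    exact ((ram_finite _ _).union (ram_finite _ _)).union (ram_finite _ _)
  have hRa : ∀ w ∈ R, up L a ∉ LS (w.valuation L) := by
    intro w hw
    rw [hR] at hw
    rcases hw with (hw | hw) | hw
    · exact ram_not_LS hw
    · exact ram_not_LS hw
    · exact ram_not_LS hw
  have hRo : ∀ w ∈ R, ∀ v : HeightOneSpectrum (𝓞 k),
      w.asIdeal.comap (algebraMap (𝓞 k) (𝓞 L)) = v.asIdeal → OddP w v := by
    intro w hw v hwv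
    by_contra hcon
    rw [hR] at hw
    rcases hw with (hw | hw) | hw
    · exact hcon (hodd w v hwv hw)
    · exact hcon (hodd w v hwv (ram_of_even hwv hcon hw))
    · exact hcon (hodd w v hwv (ram_of_even hwv hcon hw))
  obtain ⟨S, hS⟩ : ∃ S : Set (HeightOneSpectrum (𝓞 k)), S = {v | Ram a b v} ∪ {v | Ram a b' v} ∪
    below '' R ∪ {v0} := ⟨_, rfl⟩
  have hSf : S.Finite := by
    rw [hS]
    exact (((ram_finite _ _).union (ram_finite _ _)).union (hRf.image _)).union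
      (Set.finite_singleton _)
  have hSa : ∀ v ∈ S, a ∉ LS (v.valuation k) := by
    intro v hv
    rw [hS] at hv
    rcases hv with ((hv | hv) | hv) | hv
    · exact ram_not_LS hv
    · exact ram_not_LS hv
    · obtain ⟨w, hw, rfl⟩ := hv
      exact fun h => hRa w hw (LS_map (hbelow w) h)
    · rw [Set.mem_singleton_iff] at hv
      rw [hv]
      exact hv0
  have hSv0 : v0 ∈ S := by
    rw [hS]
    exact Or.inr rfl
  have hSb : ∀ v, Ram a b v → v ∈ S := fun v hv => by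
    rw [hS]
    exact Or.inl (Or.inl (Or.inl hv))
  have hSb' : ∀ v, Ram a b' v → v ∈ S := fun v hv => by
    rw [hS]
    exact Or.inl (Or.inl (Or.inr hv))
  have hSR : ∀ w ∈ R, below w ∈ S := fun w hw => by
    rw [hS]
    exact Or.inl (Or.inr ⟨w, hw, rfl⟩)
  -- the auxiliary places
  choose vt hvt hvt' using fun j : Fin 3 => exists_nonsplit (t j) (ht j) S hSf
  obtain ⟨T, hT⟩ : ∃ T : Set (HeightOneSpectrum (𝓞 k)), T = S ∪ Set.range vt := ⟨_, rfl⟩
  have hTf : T.Finite := by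
    rw [hT]
    exact hSf.union (Set.finite_range _)
  have hST : S ⊆ T := by
    rw [hT]
    exact Set.subset_union_left
  have hvT : ∀ j, vt j ∈ T := fun j => by
    rw [hT]
    exact Or.inr ⟨j, rfl⟩
  have havoid : ∀ D : kˣ, (∀ j, D ∈ LS ((vt j).valuation k)) → ∀ j, ∀ r : k,
      (D : k) ≠ t j * r ^ 2 := by
    intro D hD j r hr
    have hr0 : r ≠ 0 := by
      rintro rfl
      exact D.ne_zero (by rw [hr]; ring)
    apply hvt' j
    have e : t j = D * ((Units.mk0 r hr0) ^ 2)⁻¹ := by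
      rw [eq_mul_inv_iff_mul_eq]
      apply Units.ext
      rw [Units.val_mul, Units.val_pow_eq_pow_val, Units.val_mk0, hr]
    rw [e]
    exact mul_mem (hD j) (inv_mem (Sq_le_LS _ ⟨Units.mk0 r hr0, rfl⟩))
  -- the criterion for good elements
  have hgood : ∀ D : kˣ, (∀ v ∈ S, D ∉ LS (v.valuation k)) → (∀ τ : k →+* ℝ, τ D < 0 ↔ τ a < 0) →
      GoodD a b q (D : k) ∧ GoodD a b' q (D : k) := by
    intro D hD hs
    have h1 : ∀ w ∈ R, up L D ∉ LS (w.valuation L) := fun w hw h =>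
      hD _ (hSR w hw) (hRo w hw _ (hbelow w) D h)
    have hq : ∀ w, Ram (up L a) q w → up L D ∉ LS (w.valuation L) := fun w hw =>
      h1 w (by rw [hR]; exact Or.inl (Or.inl hw))
    exact ⟨goodD_of (fun v hv => hD v (hSb v hv)) hq
      (fun w hw => h1 w (by rw [hR]; exact Or.inl (Or.inr hw))) (fun τ h => (hs τ).mpr h)
      (fun τ h => (hs τ).mp h),
      goodD_of (fun v hv => hD v (hSb' v hv)) hq
      (fun w hw => h1 w (by rw [hR]; exact Or.inr hw)) (fun τ h => (hs τ).mpr h)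
      (fun τ h => (hs τ).mp h)⟩
  -- the two fields
  have hch : ∀ v : HeightOneSpectrum (𝓞 k), ∃ δ1 δ2 : kˣ, (v ∈ S →
      δ1 ∉ LS (v.valuation k) ∧ δ2 ∉ LS (v.valuation k) ∧
      ∀ w : HeightOneSpectrum (𝓞 L), w.asIdeal.comap (algebraMap (𝓞 k) (𝓞 L)) = v.asIdeal →
        (up L δ1 ∈ LS (w.valuation L) ∨ (OddP w v ∧ δ1 * δ2 ∉ LS (v.valuation k)))) ∧
      (v ∉ S → δ1 = 1 ∧ δ2 = 1) := by
    intro v
    by_cases hv : v ∈ S
    · obtain ⟨δ1, δ2, h⟩ := loc_choice h3 v (hSa v hv)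
      exact ⟨δ1, δ2, fun _ => h, fun h => absurd hv h⟩
    · exact ⟨1, 1, fun h => absurd h hv, fun _ => ⟨rfl, rfl⟩⟩
  choose g1 g2 hg hg' using hch
  obtain ⟨D1, hD1⟩ := weak_approx' hTf (Sum.elim g1 fun _ => a)
  obtain ⟨D2, hD2⟩ := weak_approx' hTf (Sum.elim g2 fun _ => a)
  have hD1T : ∀ v ∈ T, D1 / g1 v ∈ LS (v.valuation k) := fun v hv =>
    hD1 (Sum.inl v) (inl_mem_SP.mpr hv)
  have hD2T : ∀ v ∈ T, D2 / g2 v ∈ LS (v.valuation k) := fun v hv =>
    hD2 (Sum.inl v) (inl_mem_SP.mpr hv)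
  have hD1v : ∀ v ∈ S, D1 / g1 v ∈ LS (v.valuation k) := fun v hv => hD1T v (hST hv)
  have hD2v : ∀ v ∈ S, D2 / g2 v ∈ LS (v.valuation k) := fun v hv => hD2T v (hST hv)
  have hD1t : ∀ v ∈ T, v ∉ S → D1 ∈ LS (v.valuation k) := fun v hv hv' => by
    have h1 := hD1T v hv
    rwa [(hg' v hv').1, div_one] at h1
  have hD2t : ∀ v ∈ T, v ∉ S → D2 ∈ LS (v.valuation k) := fun v hv hv' => by
    have h1 := hD2T v hv
    rwa [(hg' v hv').2, div_one] at h1
  have hD1S : ∀ v ∈ S, D1 ∉ LS (v.valuation k) := by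
    intro v hv h
    have h2 := mul_mem (inv_mem (hD1v v hv)) h
    rw [inv_div, div_mul_cancel] at h2
    exact (hg v hv).1 h2
  have hD2S : ∀ v ∈ S, D2 ∉ LS (v.valuation k) := by
    intro v hv h
    have h2 := mul_mem (inv_mem (hD2v v hv)) h
    rw [inv_div, div_mul_cancel] at h2
    exact (hg v hv).2.1 h2
  have hsgn : ∀ D : kˣ, (∀ τ : k →+* ℝ, D / a ∈ LSp (Sum.inr τ : Pl k)) →
      ∀ τ : k →+* ℝ, τ D < 0 ↔ τ a < 0 := by
    intro D hD τ
    have h1 : 0 < τ ((D / a : kˣ) : k) := hD τ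
    rw [Units.val_div_eq_div_val, map_div₀] at h1
    rcases div_pos_iff.mp h1 with ⟨h2, h4⟩ | ⟨h2, h4⟩
    · exact ⟨fun h => absurd h2 (not_lt.mpr h.le), fun h => absurd h4 (not_lt.mpr h.le)⟩
    · exact ⟨fun _ => h4, fun _ => h2⟩
  have hD1r := hsgn D1 fun τ => hD1 (Sum.inr τ) inr_mem_SP
  have hD2r := hsgn D2 fun τ => hD2 (Sum.inr τ) inr_mem_SP
  -- the target
  obtain ⟨y, hy⟩ := hρ
  have h01 : algebraMap L E y ≠ ρ (algebraMap L E y) := fun h => hy h.symm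
  have h12 : ρ (algebraMap L E y) ≠ ρ (ρ (algebraMap L E y)) := fun h => hy (ρ.injective h.symm)
  have h20 : ρ (ρ (algebraMap L E y)) ≠ algebraMap L E y := fun h => by
    have h1 := congrArg ρ h
    rw [ρ3] at h1
    exact h01 h1
  have hD1ns : ¬ IsSquare (D1 : k) := fun h => hD1S v0 hSv0 (Sq_le_LS _ (mem_Sq_iff.mpr h))
  have hc0 : y ^ 2 - algebraMap k L D1 ≠ 0 := by
    intro h
    refine hD1ns (sq_of_cubic h3 ⟨y, ?_⟩)
    linear_combination -h
  obtain ⟨c, hc⟩ : ∃ c : Lˣ, (c : L) = y ^ 2 - algebraMap k L D1 := ⟨Units.mk0 _ hc0, rfl⟩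
  have hdec0 : ∀ w : HeightOneSpectrum (𝓞 L), up L D1 ∈ LS (w.valuation L) →
      c / ν ∈ NF (up L D1) ⊔ NF (up L D2) ⊔ LS (w.valuation L) := by
    intro w h1
    have h2 : NF (up L D1) ⊔ LS (w.valuation L) = ⊤ := NF_sup_of_mem' _ h1
    have h4 : NF (up L D1) ⊔ LS (w.valuation L) ≤
        NF (up L D1) ⊔ NF (up L D2) ⊔ LS (w.valuation L) :=
      sup_le (le_sup_left.trans le_sup_left) le_sup_right
    exact h4 (by rw [h2]; exact Subgroup.mem_top _)
  have hdec1 : ∀ w ∈ ov L T, c / ν ∈ NF (up L D1) ⊔ NF (up L D2) ⊔ LSp (Sum.inl w : Pl L) := by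
    rintro w ⟨v, hvT', hwv⟩
    change c / ν ∈ NF (up L D1) ⊔ NF (up L D2) ⊔ LS (w.valuation L)
    by_cases hv : v ∈ S
    swap
    · exact hdec0 w (LS_map hwv (hD1t v hvT' hv))
    rcases ((hg v) hv).2.2 w hwv with h | ⟨ho, h⟩
    · refine hdec0 w ?_
      have h2 := mul_mem (LS_map hwv (hD1v v hv)) h
      rwa [← map_mul, div_mul_cancel] at h2
    · rw [NF_sup_NF w (fun h' => hD1S v hv (ho D1 h')) (fun h' => hD2S v hv (ho D2 h'))
        (fun h' => ?_)]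
      · exact Subgroup.mem_top _
      · have h1 : D1 * D2 ∈ LS (v.valuation k) := ho _ (by rwa [map_mul])
        have h2 := mul_mem (inv_mem (mul_mem (hD1v v hv) (hD2v v hv))) h1
        apply h
        have e : (D1 / g1 v * (D2 / g2 v))⁻¹ * (D1 * D2) = g1 v * g2 v := by
          rw [mul_inv, inv_div, inv_div, mul_mul_mul_comm, div_mul_cancel, div_mul_cancel]
        rwa [e] at h2
  have hdec2 : ∀ ψ : L →+* ℝ,
      c / ν ∈ NF (up L D1) ⊔ NF (up L D2) ⊔ LSp (Sum.inr ψ : Pl L) := by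
    intro ψ
    by_cases h : 0 < ψ (algebraMap k L D1)
    · have h1 : NF (up L D1) ⊔ LSp (Sum.inr ψ : Pl L) = ⊤ :=
        Even.sup_eq_top (a := up L D1) (p := Sum.inr ψ) h
      have h2 : NF (up L D1) ⊔ LSp (Sum.inr ψ : Pl L) ≤
          NF (up L D1) ⊔ NF (up L D2) ⊔ LSp (Sum.inr ψ : Pl L) :=
        sup_le (le_sup_left.trans le_sup_left) le_sup_right
      exact h2 (by rw [h1]; exact Subgroup.mem_top _)
    · refine Subgroup.mem_sup_right ?_
      change 0 < ψ ((c / ν : Lˣ) : L)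
      have h1 : ψ (algebraMap k L D1) < 0 := lt_of_le_of_ne (not_lt.mp h) ((map_ne_zero ψ).mpr
        ((map_ne_zero (algebraMap k L)).mpr D1.ne_zero))
      have h2 : ψ (algebraMap k L a) < 0 := (hD1r (ψ.comp (algebraMap k L))).mp h1
      rw [Units.val_div_eq_div_val, map_div₀, hc, map_sub, map_pow]
      exact div_pos (by nlinarith [sq_nonneg (ψ y)]) (hν ψ h2)
  -- closeness for the third field
  have h4a : (4 * D1 : k) ≠ 0 := mul_ne_zero (by norm_num) D1.ne_zero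
  choose δ1 hδ1 hnear using fun p : Pl k => LSp_of_near p (Units.mk0 _ h4a)
  have hδ : ∀ p : Pl k, ∃ δ : ℝ, 0 < δ ∧ (p ∈ SP T → ∀ z : L,
      (∀ r ∈ TS (ov L T), paAbv r (z - (y ^ 2 - algebraMap k L D1)) < δ) → ∀ d : k,
      algebraMap k E d = iD (algebraMap L E y) (ρ (algebraMap L E y))
        (ρ (ρ (algebraMap L E y))) (algebraMap L E z) (ρ (algebraMap L E z))
        (ρ (ρ (algebraMap L E z))) →
      plAbv p (d - 4 * D1) < min (δ1 p) (plAbv p (4 * D1 : k))) := by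
    intro p
    by_cases hp : p ∈ SP T
    · obtain ⟨Q, hQ, ε', hε', hQ'⟩ := exists_Q (E := E) T p hp
        (ε := min (δ1 p) (plAbv p (4 * D1 : k))) (lt_min (hδ1 p) ((plAbv p).pos h4a))
      obtain ⟨δ, hδ, h1⟩ := exists_iD_deltaI T y (D1 : k) h01 h12 h20 Q hQ hε'
      refine ⟨δ, hδ, fun _ z hz d hd => hQ' _ ?_⟩
      rw [map_sub, hd]
      exact h1 z hz
    · exact ⟨1, one_pos, fun h => absurd h hp⟩
  choose δ2 hδ2 hiD using hδ
  obtain ⟨δ, hδ, hδle⟩ : ∃ δ : ℝ, 0 < δ ∧ ∀ p ∈ SP T, δ ≤ δ2 p := by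
    have _hfin : Finite (SP T) := SP_finite hTf
    by_cases hne : Nonempty (SP T)
    · obtain ⟨p0, hp0⟩ := Finite.exists_min (fun p : SP T => δ2 p)
      exact ⟨δ2 p0, hδ2 _, fun p hp => hp0 ⟨p, hp⟩⟩
    · exact ⟨1, one_pos, fun p hp => absurd ⟨⟨p, hp⟩⟩ hne⟩
  obtain ⟨X, hX⟩ := glob_ptA (ov_finite (E := L) hTf) (ν := ν) (a := up L D1) (D := up L D2)
    (c := c) hdec1 hdec2 hδ
  obtain ⟨z, hz⟩ : ∃ z, z = f4 (ν : L) (up L D1 : Lˣ) (up L D2 : Lˣ) X := ⟨_, rfl⟩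
  rw [← hz, hc] at hX
  obtain ⟨A, B, C, hint, hdE⟩ := exists_coord h3 h01 h12 h20 z
  obtain ⟨d, hd⟩ : ∃ d : k, d = B ^ 2 - 4 * A * C := ⟨_, rfl⟩
  rw [← hd] at hdE
  have hzD : ∀ p ∈ SP T, plAbv p (d - 4 * D1) < min (δ1 p) (plAbv p (4 * D1 : k)) :=
    fun p hp => hiD p hp z (fun r hr => (hX r hr).trans_le (hδle p hp)) d hdE
  have hd0 : d ≠ 0 := by
    rintro rfl
    have h1 := (hzD (Sum.inl v0) (inl_mem_SP.mpr (hST hSv0))).trans_le (min_le_right _ _)
    rw [zero_sub, (plAbv _).map_neg] at h1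
    exact absurd h1 (lt_irrefl _)
  obtain ⟨D3, hD3⟩ : ∃ D3 : kˣ, (D3 : k) = d := ⟨Units.mk0 d hd0, rfl⟩
  have hprod : ∀ p ∈ SP T, D3 * Units.mk0 _ h4a ∈ LSp p := by
    intro p hp
    refine hnear p _ ?_
    rw [hD3]
    exact (hzD p hp).trans_le (min_le_left _ _)
  have hfour : ∀ p : Pl k, D3 * Units.mk0 _ h4a ∈ LSp p → D3 * D1 ∈ LSp p := by
    intro p h
    have e : D3 * D1 = D3 * Units.mk0 _ h4a * (Units.mk0 (2 : k) two_ne_zero ^ 2)⁻¹ := by
      rw [eq_mul_inv_iff_mul_eq]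
      apply Units.ext
      rw [Units.val_mul, Units.val_mul, Units.val_mul, Units.val_pow_eq_pow_val, Units.val_mk0,
        Units.val_mk0]
      ring
    rw [e]
    exact mul_mem h (inv_mem (Sq_le_LSp p ⟨Units.mk0 (2 : k) two_ne_zero, rfl⟩))
  have hD3S : ∀ v ∈ S, D3 ∉ LS (v.valuation k) := by
    intro v hv h
    have h1 : D3 * D1 ∈ LS (v.valuation k) :=
      hfour (Sum.inl v) (hprod (Sum.inl v) (inl_mem_SP.mpr (hST hv)))
    have h5 := mul_mem (inv_mem h) h1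
    rw [inv_mul_cancel_left] at h5
    exact hD1S v hv h5
  have hD3t : ∀ v ∈ T, v ∉ S → D3 ∈ LS (v.valuation k) := by
    intro v hv hv'
    have h1 : D3 * D1 ∈ LS (v.valuation k) :=
      hfour (Sum.inl v) (hprod (Sum.inl v) (inl_mem_SP.mpr hv))
    have h5 := mul_mem h1 (inv_mem (hD1t v hv hv'))
    rwa [mul_inv_cancel_right] at h5
  have hD3r : ∀ τ : k →+* ℝ, τ D3 < 0 ↔ τ a < 0 := by
    intro τ
    have h1 : 0 < τ ((D3 * D1 : kˣ) : k) := hfour (Sum.inr τ) (hprod (Sum.inr τ) inr_mem_SP)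
    rw [Units.val_mul, map_mul] at h1
    rw [← hD1r τ]
    constructor
    · intro h
      by_contra hcon
      nlinarith
    · intro h
      by_contra hcon
      nlinarith
  have hg3 := hgood D3 hD3S hD3r
  have hD3ns : ¬ IsSquare (D3 : k) := fun h => hD3S v0 hSv0 (Sq_le_LS _ (mem_Sq_iff.mpr h))
  have hA0 : A ≠ 0 := by
    rintro rfl
    apply hD3ns
    refine ⟨B, ?_⟩
    rw [hD3, hd]
    ring
  have h4A : (4 * A : k) ≠ 0 := mul_ne_zero (by norm_num) hA0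
  have hzform : algebraMap k L (4 * A) * z =
      (2 * algebraMap k L A * y + algebraMap k L B) ^ 2 - algebraMap k L d * 1 ^ 2 := by
    rw [hint, hd]
    simp only [map_mul, map_sub, map_pow, map_ofNat]
    ring
  have hz0 : z ≠ 0 := by
    intro h
    rw [h, mul_zero] at hzform
    apply hD3ns
    refine sq_of_cubic h3 ⟨2 * algebraMap k L A * y + algebraMap k L B, ?_⟩
    rw [hD3]
    linear_combination hzform
  obtain ⟨n1, hn1⟩ : ∃ n1, n1 = X 0 ^ 2 - algebraMap k L D1 * X 1 ^ 2 := ⟨_, rfl⟩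
  obtain ⟨n2, hn2⟩ : ∃ n2, n2 = X 2 ^ 2 - algebraMap k L D2 * X 3 ^ 2 := ⟨_, rfl⟩
  have hzn : z = ν * n1 * n2 := by
    rw [hz, hn1, hn2]
    rfl
  have hn10 : n1 ≠ 0 := by
    rintro rfl
    exact hz0 (by rw [hzn]; ring)
  have hn20 : n2 ≠ 0 := by
    rintro rfl
    exact hz0 (by rw [hzn]; ring)
  refine ⟨![(D1 : k), (D2 : k), (D3 : k)],
    ![X 0 / n1, X 2 / n2, 2 * algebraMap k L A * y + algebraMap k L B],
    ![X 1 / n1, X 3 / n2, 1], (Units.mk0 _ h4A)⁻¹, ?_, ?_, ?_, ?_⟩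
  · intro i
    fin_cases i
    · exact hgood D1 hD1S hD1r
    · exact hgood D2 hD2S hD2r
    · exact hg3
  · intro i
    fin_cases i
    · exact hD1r
    · exact hD2r
    · exact hD3r
  · intro i
    fin_cases i
    · exact havoid D1 fun j => hD1t _ (hvT j) (hvt j)
    · exact havoid D2 fun j => hD2t _ (hvT j) (hvt j)
    · exact havoid D3 fun j => hD3t _ (hvT j) (hvt j)
  · rw [Fin.prod_univ_three]
    change (ν : L) = algebraMap k L ((Units.mk0 _ h4A)⁻¹ : kˣ) *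
      (((X 0 / n1) ^ 2 - algebraMap k L D1 * (X 1 / n1) ^ 2) *
        ((X 2 / n2) ^ 2 - algebraMap k L D2 * (X 3 / n2) ^ 2) *
        ((2 * algebraMap k L A * y + algebraMap k L B) ^ 2 - algebraMap k L D3 * 1 ^ 2))
    rw [← inv_form hn10 hn1, ← inv_form hn20 hn2, hD3, ← hzform, hzn,
      Units.val_inv_eq_inv_val, Units.val_mk0, map_inv₀]
    have h5 : algebraMap k L (4 * A) ≠ 0 := (map_ne_zero _).mpr h4A
    field_simp

end main

end Vale.Agent.P011.D4Y
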